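import Mathlib
import Vale.Agent.P196.AM.G0
import Vale.Agent.P196.AM.Orb
import Vale.Agent.P196.S0.Simple

/-!
# P196, AM7a: reduction of amenability to almost invariant measures for the generators,
one coordinate at a time
-/

namespace Vale.Agent.P196.AM

open Equiv Vale.Agent.P196.S0

variable {ι : Type*}

/-- target functions: first component is the absolute coordinate of the target. -/
abbrev Tgt (ι : Type*) := Z2 × ι → ℤ × Bool

section ai

/-- Defect of invariance of `F` (supported in `T`) under `g`. -/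
noncomputable def defect {P V : Type*} (F : (P → V) → ℝ) (T : Finset (P → V)) (g : Perm P) : ℝ :=
  ∑ y ∈ T, |F (y ∘ g) - F y|

/-- `K`-almost invariant finitely supported measures on target functions with bounded
displacement with respect to the coordinate `pos`. -/
def AI (pos : Z2 → ℤ) (gens : Set (Perm (Z2 × ι))) : Prop :=
  ∀ K : Finset (Perm (Z2 × ι)), (K : Set (Perm (Z2 × ι))) ⊆ gens → ∀ δ : ℝ, 0 < δ →
    ∃ (F : Tgt ι → ℝ) (T : Finset (Tgt ι)), (∀ y, 0 ≤ F y) ∧ (∀ y, F y ≠ 0 → y ∈ T) ∧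
      0 < ∑ y ∈ T, F y ∧ (∃ C : ℤ, ∀ y ∈ T, ∀ p : Z2 × ι, |(y p).1 - pos p.1| ≤ C) ∧
      ∀ g ∈ K, defect F T g ≤ δ * ∑ y ∈ T, F y

variable {P V : Type*}

theorem comp_inj (g : Perm P) : Function.Injective (fun y : P → V => y ∘ g) := by
  intro a b h
  funext p
  have := congrFun h (g⁻¹ p)
  simpa using this

open Classical in
/-- sum over an arbitrary finite set is at most twice the defect. -/
theorem sum_le_two_defect (F : (P → V) → ℝ) (T : Finset (P → V)) (h0 : ∀ y, 0 ≤ F y)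
    (hT : ∀ y, F y ≠ 0 → y ∈ T) (g : Perm P) (U : Finset (P → V)) :
    ∑ y ∈ U, |F (y ∘ g) - F y| ≤ 2 * defect F T g := by
  have h1 : ∑ y ∈ U, |F (y ∘ g) - F y| ≤ ∑ y ∈ U ∪ T, |F (y ∘ g) - F y| :=
    Finset.sum_le_sum_of_subset_of_nonneg Finset.subset_union_left fun _ _ _ => abs_nonneg _
  have h2 : ∑ y ∈ U ∪ T, |F (y ∘ g) - F y| = ∑ y ∈ T, |F (y ∘ g) - F y| +
      ∑ y ∈ (U ∪ T) \ T, |F (y ∘ g) - F y| := by
    rw [add_comm, Finset.sum_sdiff Finset.subset_union_right]
  have h3 : ∑ y ∈ (U ∪ T) \ T, |F (y ∘ g) - F y| = ∑ y ∈ (U ∪ T) \ T, F (y ∘ g) := by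
    refine Finset.sum_congr rfl fun y hy => ?_
    have : F y = 0 := by
      by_contra h
      exact (Finset.mem_sdiff.1 hy).2 (hT y h)
    rw [this, sub_zero, abs_of_nonneg (h0 _)]
  have h4 : ∑ y ∈ U ∪ T, F (y ∘ g) ≤ ∑ y ∈ T, F y := by
    calc ∑ y ∈ U ∪ T, F (y ∘ g) = ∑ z ∈ (U ∪ T).image (fun y => y ∘ g), F z := by
          rw [Finset.sum_image]
          intro a _ b _ h
          exact comp_inj g h
      _ = ∑ z ∈ ((U ∪ T).image (fun y => y ∘ g)).filter (fun z => z ∈ T), F z := by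
          rw [Finset.sum_filter_of_ne]
          intro z _ hz
          exact hT z hz
      _ ≤ ∑ y ∈ T, F y := by
          refine Finset.sum_le_sum_of_subset_of_nonneg ?_ fun _ _ _ => h0 _
          intro z hz
          exact (Finset.mem_filter.1 hz).2
  have h5 : ∑ y ∈ U ∪ T, F (y ∘ g) = ∑ y ∈ T, F (y ∘ g) + ∑ y ∈ (U ∪ T) \ T, F (y ∘ g) := by
    rw [add_comm, Finset.sum_sdiff Finset.subset_union_right]
  have h6 : ∑ y ∈ T, F y - ∑ y ∈ T, F (y ∘ g) ≤ ∑ y ∈ T, |F (y ∘ g) - F y| := by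
    rw [← Finset.sum_sub_distrib]
    refine Finset.sum_le_sum fun y _ => ?_
    rw [abs_sub_comm]
    exact le_abs_self _
  unfold defect
  linarith

theorem defect_nonneg (F : (P → V) → ℝ) (T : Finset (P → V)) (g : Perm P) :
    0 ≤ defect F T g := Finset.sum_nonneg fun _ _ => abs_nonneg _

theorem defect_one (F : (P → V) → ℝ) (T : Finset (P → V)) : defect F T 1 = 0 := by
  simp [defect]

open Classical in
theorem defect_mul (F : (P → V) → ℝ) (T : Finset (P → V)) (h0 : ∀ y, 0 ≤ F y)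
    (hT : ∀ y, F y ≠ 0 → y ∈ T) (g h : Perm P) :
    defect F T (g * h) ≤ 2 * defect F T h + defect F T g := by
  have h1 : defect F T (g * h) ≤ ∑ y ∈ T, |F ((y ∘ g) ∘ h) - F (y ∘ g)| +
      ∑ y ∈ T, |F (y ∘ g) - F y| := by
    rw [← Finset.sum_add_distrib]
    refine Finset.sum_le_sum fun y _ => ?_
    have : y ∘ (g * h : Perm P) = (y ∘ g) ∘ h := by
      funext p; simp
    rw [this]
    exact abs_sub_le _ _ _
  have h2 : ∑ y ∈ T, |F ((y ∘ g) ∘ h) - F (y ∘ g)| ≤ 2 * defect F T h := by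
    calc ∑ y ∈ T, |F ((y ∘ g) ∘ h) - F (y ∘ g)|
        = ∑ z ∈ T.image (fun y => y ∘ g), |F (z ∘ h) - F z| := by
          rw [Finset.sum_image]
          intro a _ b _ h
          exact comp_inj g h
      _ ≤ _ := sum_le_two_defect F T h0 hT h _
  unfold defect at *
  linarith

open Classical in
theorem defect_inv (F : (P → V) → ℝ) (T : Finset (P → V)) (h0 : ∀ y, 0 ≤ F y)
    (hT : ∀ y, F y ≠ 0 → y ∈ T) (g : Perm P) :
    defect F T g⁻¹ ≤ 2 * defect F T g := by
  calc defect F T g⁻¹ = ∑ z ∈ T.image (fun y => y ∘ (g⁻¹ : Perm P)), |F (z ∘ g) - F z| := by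
        rw [Finset.sum_image]
        · unfold defect
          refine Finset.sum_congr rfl fun y _ => ?_
          have : (y ∘ (g⁻¹ : Perm P)) ∘ g = y := by funext p; simp
          rw [this, abs_sub_comm]
        · intro a _ b _ h
          exact comp_inj g⁻¹ h
    _ ≤ _ := sum_le_two_defect F T h0 hT g _

/-- A finite set of generators controls an element of the subgroup they generate. -/
theorem control (gens : Set (Perm P)) (g : Perm P) (hg : g ∈ Subgroup.closure gens) :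
    ∃ (K : Finset (Perm P)) (c : ℝ), (K : Set (Perm P)) ⊆ gens ∧ 0 ≤ c ∧
      ∀ (F : (P → V) → ℝ) (T : Finset (P → V)) (m : ℝ), (∀ y, 0 ≤ F y) →
        (∀ y, F y ≠ 0 → y ∈ T) → (∀ s ∈ K, defect F T s ≤ m) → 0 ≤ m →
        defect F T g ≤ c * m := by
  classical
  induction hg using Subgroup.closure_induction with
  | mem x hx =>
    refine ⟨{x}, 1, by simpa using hx, zero_le_one, ?_⟩
    intro F T m _ _ h _
    simpa using h x (by simp)
  | one =>
    refine ⟨∅, 0, by simp, le_refl _, ?_⟩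
    intro F T m _ _ _ _
    rw [defect_one]; simp
  | mul x y _ _ hx hy =>
    obtain ⟨K1, c1, h1, hc1, H1⟩ := hx
    obtain ⟨K2, c2, h2, hc2, H2⟩ := hy
    refine ⟨K1 ∪ K2, 2 * c2 + c1, by simp [h1, h2], by positivity, ?_⟩
    intro F T m h0 hT hK hm
    have e1 := H1 F T m h0 hT (fun s hs => hK s (Finset.mem_union_left _ hs)) hm
    have e2 := H2 F T m h0 hT (fun s hs => hK s (Finset.mem_union_right _ hs)) hm
    have e3 := defect_mul F T h0 hT x y
    nlinarith
  | inv x _ hx =>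
    obtain ⟨K1, c1, h1, hc1, H1⟩ := hx
    refine ⟨K1, 2 * c1, h1, by positivity, ?_⟩
    intro F T m h0 hT hK hm
    have e1 := H1 F T m h0 hT hK hm
    have e3 := defect_inv F T h0 hT x
    nlinarith

/-- `AI` for generators gives `AI` for the generated subgroup. -/
theorem AI.closure {pos : Z2 → ℤ} {gens : Set (Perm (Z2 × ι))} (h : AI pos gens) :
    AI pos (Subgroup.closure gens : Set (Perm (Z2 × ι))) := by
  classical
  intro K hK δ hδ
  choose! Kf cf hKf hcf Hf using fun g (hg : g ∈ Subgroup.closure gens) =>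
    control (V := ℤ × Bool) gens g hg
  set c := 1 + ∑ g ∈ K, cf g with hc
  have hcpos : 0 < c := by
    have : 0 ≤ ∑ g ∈ K, cf g := Finset.sum_nonneg fun g hg => hcf g (hK hg)
    linarith
  obtain ⟨F, T, h0, hT, hpos, hC, hF⟩ := h (K.biUnion Kf) (by
    intro s hs
    simp only [Finset.coe_biUnion, Set.mem_iUnion] at hs
    obtain ⟨g, hg, hs⟩ := hs
    exact hKf g (hK hg) hs) (δ / c) (by positivity)
  refine ⟨F, T, h0, hT, hpos, hC, ?_⟩
  intro g hg
  have h1 := Hf g (hK hg) F T (δ / c * ∑ y ∈ T, F y) h0 hT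
    (fun s hs => hF s (Finset.mem_biUnion.2 ⟨g, hg, hs⟩)) (by positivity)
  have h2 : cf g ≤ c := by
    have : cf g ≤ ∑ g ∈ K, cf g :=
      Finset.single_le_sum (f := cf) (fun x hx => hcf x (hK hx)) hg
    linarith
  calc defect F T g ≤ cf g * (δ / c * ∑ y ∈ T, F y) := h1
    _ ≤ c * (δ / c * ∑ y ∈ T, F y) := by
        apply mul_le_mul_of_nonneg_right h2 (by positivity)
    _ = δ * ∑ y ∈ T, F y := by field_simp

end ai

section bdd

/-- permutations with bounded displacement -/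
def bdd (ι : Type*) : Subgroup (Perm (Z2 × ι)) where
  carrier := {g | ∃ C : ℤ, ∀ p, |(g p).1.1 - p.1.1| ≤ C ∧ |(g p).1.2 - p.1.2| ≤ C}
  mul_mem' := by
    rintro g h ⟨C, hC⟩ ⟨D, hD⟩
    refine ⟨C + D, fun p => ⟨?_, ?_⟩⟩
    · have h1 := (hC (h p)).1
      have h2 := (hD p).1
      have := abs_sub_le ((g (h p)).1.1) ((h p).1.1) p.1.1
      simp only [Perm.mul_apply]
      linarith
    · have h1 := (hC (h p)).2
      have h2 := (hD p).2
      have := abs_sub_le ((g (h p)).1.2) ((h p).1.2) p.1.2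
      simp only [Perm.mul_apply]
      linarith
  one_mem' := ⟨0, by simp⟩
  inv_mem' := by
    rintro g ⟨C, hC⟩
    refine ⟨C, fun p => ⟨?_, ?_⟩⟩
    · have := (hC (g⁻¹ p)).1
      rw [abs_sub_comm]
      simpa using this
    · have := (hC (g⁻¹ p)).2
      rw [abs_sub_comm]
      simpa using this

theorem eP_mem_bdd (E : Set Z2) (a : Perm ι) : eP E a ∈ bdd ι := by
  refine ⟨0, ?_⟩
  rintro ⟨u, f⟩
  by_cases h : u ∈ E
  · rw [eP_apply_mem h]; simp
  · rw [eP_apply_notMem h]; simp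

theorem dP_mem_bdd [Finite ι] (w : ι → Z2) : dP w ∈ bdd ι := by
  have := Fintype.ofFinite ι
  refine ⟨∑ i, (|(w i).1| + |(w i).2|), ?_⟩
  rintro ⟨u, f⟩
  have h := Finset.single_le_sum (f := fun i => |(w i).1| + |(w i).2|)
    (fun i _ => by positivity) (Finset.mem_univ f)
  have a1 := abs_nonneg (w f).1
  have a2 := abs_nonneg (w f).2
  simp only [dP_apply, Prod.fst_add, Prod.snd_add, add_sub_cancel_left]
  constructor <;> linarith

/-- pairs of target functions with bounded displacement -/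
def YY (ι : Type*) : Type _ :=
  {y : Tgt ι × Tgt ι // ∃ C : ℤ, ∀ p, |(y.1 p).1 - p.1.1| ≤ C ∧ |(y.2 p).1 - p.1.2| ≤ C}

instance : MulAction (bdd ι) (YY ι) where
  smul g y := ⟨(y.1.1 ∘ (g⁻¹ : bdd ι).1, y.1.2 ∘ (g⁻¹ : bdd ι).1), by
    obtain ⟨C, hC⟩ := y.2
    obtain ⟨D, hD⟩ := (g⁻¹ : bdd ι).2
    refine ⟨C + D, fun p => ⟨?_, ?_⟩⟩
    · have h1 := (hC ((g⁻¹ : bdd ι).1 p)).1
      have h2 := (hD p).1
      have := abs_sub_le (y.1.1 ((g⁻¹ : bdd ι).1 p)).1 ((g⁻¹ : bdd ι).1 p).1.1 p.1.1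
      simp only [Function.comp_apply]
      linarith
    · have h1 := (hC ((g⁻¹ : bdd ι).1 p)).2
      have h2 := (hD p).2
      have := abs_sub_le (y.1.2 ((g⁻¹ : bdd ι).1 p)).1 ((g⁻¹ : bdd ι).1 p).1.2 p.1.2
      simp only [Function.comp_apply]
      linarith⟩
  one_smul y := by
    apply Subtype.ext
    apply Prod.ext <;> rfl
  mul_smul g h y := by
    apply Subtype.ext
    apply Prod.ext
    · funext p
      show y.1.1 (((g * h)⁻¹ : bdd ι).1 p) = y.1.1 ((h⁻¹ : bdd ι).1 ((g⁻¹ : bdd ι).1 p))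
      rw [mul_inv_rev]
      rfl
    · funext p
      show y.1.2 (((g * h)⁻¹ : bdd ι).1 p) = y.1.2 ((h⁻¹ : bdd ι).1 ((g⁻¹ : bdd ι).1 p))
      rw [mul_inv_rev]
      rfl

theorem smul_fst (g : bdd ι) (y : YY ι) : (g • y).1.1 = y.1.1 ∘ (g⁻¹ : bdd ι).1 := rfl
theorem smul_snd (g : bdd ι) (y : YY ι) : (g • y).1.2 = y.1.2 ∘ (g⁻¹ : bdd ι).1 := rfl

end bdd

section main

variable [Fintype ι] [DecidableEq ι]

/-- Amenability of a subgroup of bounded permutations from `AI` in both coordinates. -/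
theorem isAmenable_of_AI (G : Subgroup (Perm (Z2 × ι))) (hG : G ≤ bdd ι)
    (h1 : AI (ι := ι) Prod.fst (G : Set (Perm (Z2 × ι))))
    (h2 : AI (ι := ι) Prod.snd (G : Set (Perm (Z2 × ι)))) :
    Vale.Agent.P196.IsAmenable G := by
  classical
  let _ : MulAction G (YY ι) := MulAction.compHom (YY ι) (Subgroup.inclusion hG)
  have hfst : ∀ (g : G) (y : YY ι), (g • y).1.1 = y.1.1 ∘ ((g⁻¹ : G) : Perm (Z2 × ι)) :=
    fun g y => rfl
  have hsnd : ∀ (g : G) (y : YY ι), (g • y).1.2 = y.1.2 ∘ ((g⁻¹ : G) : Perm (Z2 × ι)) :=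
    fun g y => rfl
  refine isAmenable_of_l1 (Y := YY ι) ?_ ?_
  · -- stabilisers
    intro y S hS
    obtain ⟨C, hC⟩ := y.2
    have hC0 : 0 ≤ C ∨ IsEmpty (Z2 × ι) := by
      rcases isEmpty_or_nonempty (Z2 × ι) with h | ⟨⟨p⟩⟩
      · exact Or.inr h
      · exact Or.inl ((abs_nonneg _).trans (hC p).1)
    let box : Z2 × ι → Finset (Z2 × ι) := fun x =>
      ((Finset.Icc ((y.1.1 x).1 - C) ((y.1.1 x).1 + C)) ×ˢ
        (Finset.Icc ((y.1.2 x).1 - C) ((y.1.2 x).1 + C))) ×ˢ Finset.univ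
    let O : Z2 × ι → Finset (Z2 × ι) := fun x =>
      (box x).filter (fun p => y.1.1 p = y.1.1 x ∧ y.1.2 p = y.1.2 x)
    have hmemO : ∀ x p, p ∈ O x ↔ (y.1.1 p = y.1.1 x ∧ y.1.2 p = y.1.2 x) := by
      intro x p
      constructor
      · intro h
        exact (Finset.mem_filter.1 h).2
      · intro h
        refine Finset.mem_filter.2 ⟨?_, h⟩
        obtain ⟨a, b⟩ := hC p
        rw [h.1, abs_le] at a
        rw [h.2, abs_le] at b
        simp only [box, Finset.mem_product, Finset.mem_Icc, Finset.mem_univ, and_true]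
        refine ⟨⟨?_, ?_⟩, ?_, ?_⟩ <;> linarith [a.1, a.2, b.1, b.2]
    refine finite_closure_of_orbits (X := Z2 × ι) S
      ((2 * C + 1).toNat * (2 * C + 1).toNat * Fintype.card ι) ?_
    intro x
    refine ⟨O x, ?_, (hmemO x x).2 ⟨rfl, rfl⟩, ?_⟩
    · refine (Finset.card_filter_le _ _).trans ?_
      simp only [box, Finset.card_product, Int.card_Icc, Finset.card_univ]
      have : (y.1.1 x).1 + C + 1 - ((y.1.1 x).1 - C) = 2 * C + 1 := by ring
      rw [this]
      have : (y.1.2 x).1 + C + 1 - ((y.1.2 x).1 - C) = 2 * C + 1 := by ring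
      rw [this]
    · intro s hs p hp
      have hsy := hS s hs
      rw [hmemO] at hp ⊢
      have e1 := congrArg (fun z : YY ι => z.1.1) hsy
      have e2 := congrArg (fun z : YY ι => z.1.2) hsy
      simp only [hfst, hsnd] at e1 e2
      have f1 := congrFun e1 (s • p)
      have f2 := congrFun e2 (s • p)
      have hsp : ((s⁻¹ : G) : Perm (Z2 × ι)) (s • p) = p := by
        show ((s⁻¹ : G) : Perm (Z2 × ι)) ((s : Perm (Z2 × ι)) p) = p
        simp
      simp only [Function.comp_apply, hsp] at f1 f2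
      rw [← f1, ← f2]
      exact hp
  · -- almost invariant measures
    intro K δ hδ
    obtain ⟨F1, T1, a0, aT, apos, ⟨C1, aC⟩, aK⟩ := h1 (K.image (fun g : G => ((g⁻¹ : G) : Perm (Z2 × ι))))
      (by intro g hg
          simp only [Finset.coe_image, Set.mem_image] at hg
          obtain ⟨k, _, rfl⟩ := hg
          exact (k⁻¹ : G).2) (δ / 2) (by positivity)
    obtain ⟨F2, T2, b0, bT, bpos, ⟨C2, bC⟩, bK⟩ := h2 (K.image (fun g : G => ((g⁻¹ : G) : Perm (Z2 × ι))))
      (by intro g hg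
          simp only [Finset.coe_image, Set.mem_image] at hg
          obtain ⟨k, _, rfl⟩ := hg
          exact (k⁻¹ : G).2) (δ / 2) (by positivity)
    let pr : Tgt ι × Tgt ι → Prop := fun y =>
      ∃ C : ℤ, ∀ p : Z2 × ι, |(y.1 p).1 - p.1.1| ≤ C ∧ |(y.2 p).1 - p.1.2| ≤ C
    have hpr : ∀ y ∈ T1 ×ˢ T2, pr y := by
      intro y hy
      rw [Finset.mem_product] at hy
      refine ⟨max C1 C2, fun p => ⟨(aC _ hy.1 p).trans (le_max_left _ _),
        (bC _ hy.2 p).trans (le_max_right _ _)⟩⟩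
    have hsub : ∀ f : Tgt ι × Tgt ι → ℝ,
        ∑ y ∈ (T1 ×ˢ T2).subtype pr, f y.1 = ∑ y ∈ T1, ∑ z ∈ T2, f (y, z) := by
      intro f
      rw [← Finset.sum_product', Finset.sum_subtype_of_mem f hpr]
    refine ⟨fun y => F1 y.1.1 * F2 y.1.2, (T1 ×ˢ T2).subtype pr, ?_, ?_, ?_, ?_⟩
    · intro y; exact mul_nonneg (a0 _) (b0 _)
    · intro y hy
      exact Finset.mem_subtype.2 (Finset.mem_product.2
        ⟨aT _ (left_ne_zero_of_mul hy), bT _ (right_ne_zero_of_mul hy)⟩)
    · have := hsub (fun y => F1 y.1 * F2 y.2)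
      simp only at this
      refine lt_of_lt_of_eq ?_ this.symm
      simp only [← Finset.mul_sum, ← Finset.sum_mul]
      positivity
    · intro g hg
      have e1 := aK _ (Finset.mem_image_of_mem _ hg)
      have e2 := bK _ (Finset.mem_image_of_mem _ hg)
      set k : Perm (Z2 × ι) := ((g⁻¹ : G) : Perm (Z2 × ι)) with hk
      have hsum : ∑ y ∈ (T1 ×ˢ T2).subtype pr, F1 y.1.1 * F2 y.1.2 =
          (∑ y ∈ T1, F1 y) * ∑ z ∈ T2, F2 z := by
        have := hsub (fun y => F1 y.1 * F2 y.2)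
        simp only at this
        rw [show (∑ y ∈ (T1 ×ˢ T2).subtype pr, F1 y.1.1 * F2 y.1.2) = _ from this]
        simp only [← Finset.mul_sum, ← Finset.sum_mul]
      have hle2 : ∑ z ∈ T2, F2 (z ∘ k) ≤ ∑ z ∈ T2, F2 z := by
        calc ∑ z ∈ T2, F2 (z ∘ k) = ∑ z ∈ T2.image (fun y => y ∘ k), F2 z := by
              rw [Finset.sum_image]
              intro a _ b _ h
              exact comp_inj k h
          _ = ∑ z ∈ (T2.image (fun y => y ∘ k)).filter (fun z => z ∈ T2), F2 z := by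
              rw [Finset.sum_filter_of_ne]
              intro z _ hz
              exact bT z hz
          _ ≤ _ := by
              refine Finset.sum_le_sum_of_subset_of_nonneg ?_ fun _ _ _ => b0 _
              intro z hz
              exact (Finset.mem_filter.1 hz).2
      show ∑ y ∈ (T1 ×ˢ T2).subtype pr, |F1 (y.1.1 ∘ k) * F2 (y.1.2 ∘ k) - F1 y.1.1 * F2 y.1.2| ≤
        δ * ∑ y ∈ (T1 ×ˢ T2).subtype pr, F1 y.1.1 * F2 y.1.2
      have hL := hsub (fun y => |F1 (y.1 ∘ k) * F2 (y.2 ∘ k) - F1 y.1 * F2 y.2|)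
      simp only at hL
      refine le_trans (le_of_eq hL) (le_trans ?_ (le_of_eq (congrArg (fun x => δ * x) hsum.symm)))
      calc ∑ y ∈ T1, ∑ z ∈ T2, |F1 (y ∘ k) * F2 (z ∘ k) - F1 y * F2 z|
          ≤ ∑ y ∈ T1, ∑ z ∈ T2, (|F1 (y ∘ k) - F1 y| * F2 (z ∘ k) + F1 y * |F2 (z ∘ k) - F2 z|) := by
            refine Finset.sum_le_sum fun y _ => Finset.sum_le_sum fun z _ => ?_
            have : F1 (y ∘ k) * F2 (z ∘ k) - F1 y * F2 z =
              (F1 (y ∘ k) - F1 y) * F2 (z ∘ k) + F1 y * (F2 (z ∘ k) - F2 z) := by ring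
            rw [this]
            refine (abs_add_le _ _).trans ?_
            rw [abs_mul, abs_mul, abs_of_nonneg (b0 _), abs_of_nonneg (a0 y)]
        _ = (∑ y ∈ T1, |F1 (y ∘ k) - F1 y|) * (∑ z ∈ T2, F2 (z ∘ k)) +
            (∑ y ∈ T1, F1 y) * ∑ z ∈ T2, |F2 (z ∘ k) - F2 z| := by
            simp only [Finset.sum_add_distrib, ← Finset.mul_sum, ← Finset.sum_mul]
        _ ≤ (δ / 2 * ∑ y ∈ T1, F1 y) * (∑ z ∈ T2, F2 z) +
            (∑ y ∈ T1, F1 y) * (δ / 2 * ∑ z ∈ T2, F2 z) := by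
            apply add_le_add
            · exact mul_le_mul e1 hle2 (Finset.sum_nonneg fun _ _ => b0 _) (by positivity)
            · exact mul_le_mul_of_nonneg_left e2 apos.le
        _ = δ * ((∑ y ∈ T1, F1 y) * ∑ z ∈ T2, F2 z) := by ring

/-- the generators used on the amenability side -/
def gens (ι : Type*) [Fintype ι] [DecidableEq ι] (LS : Set (Set Z2)) : Set (Perm (Z2 × ι)) :=
  {g | ∃ E ∈ LS, ∃ a ∈ alternatingGroup ι, g = eP E a} ∪
    {g | ∃ (i : ι) (e : Z2), (e = (1, 0) ∨ e = (0, 1)) ∧ g = dP (Pi.single i e)}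

theorem dP_mem_closure_gens (LS : Set (Set Z2)) (w : ι → Z2) :
    dP w ∈ Subgroup.closure (gens ι LS) := by
  have hsingle : ∀ (i : ι) (v : Z2), dP (Pi.single i v : ι → Z2) ∈ Subgroup.closure (gens ι LS) := by
    intro i v
    have hz : ∀ (n : ℤ) (e : Z2), (e = (1, 0) ∨ e = (0, 1)) →
        dP (Pi.single i (n • e) : ι → Z2) ∈ Subgroup.closure (gens ι LS) := by
      intro n e he
      have hb : dP (Pi.single i e : ι → Z2) ∈ Subgroup.closure (gens ι LS) :=
        Subgroup.subset_closure (Or.inr ⟨i, e, he, rfl⟩)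
      have : dP (Pi.single i (n • e) : ι → Z2) = dP (Pi.single i e : ι → Z2) ^ n := by
        induction n using Int.induction_on with
        | zero => simp [dP_zero]
        | succ m ih =>
          rw [zpow_add_one, ← ih, dP_mul, ← Pi.single_add, add_smul, one_smul]
        | pred m ih =>
          rw [zpow_sub_one, ← ih, dP_inv, dP_mul, ← Pi.single_neg, ← Pi.single_add, sub_smul,
            one_smul, sub_eq_add_neg]
      rw [this]
      exact Subgroup.zpow_mem _ hb n
    have hv : v = v.1 • ((1, 0) : Z2) + v.2 • ((0, 1) : Z2) := by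
      ext <;> simp
    rw [hv, Pi.single_add, ← dP_mul]
    exact Subgroup.mul_mem _ (hz _ _ (Or.inl rfl)) (hz _ _ (Or.inr rfl))
  have hsum : ∀ s : Finset ι, dP (∑ i ∈ s, (Pi.single i (w i) : ι → Z2)) ∈
      Subgroup.closure (gens ι LS) := by
    intro s
    induction s using Finset.induction_on with
    | empty => simp [dP_zero]
    | insert a s ha ih =>
      rw [Finset.sum_insert ha, ← dP_mul]
      exact Subgroup.mul_mem _ (hsingle _ _) ih
  have := hsum Finset.univ
  rwa [Finset.univ_sum_single] at this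

theorem grp_le_closure_gens (LS : Set (Set Z2)) :
    grp ι LS ≤ Subgroup.closure (gens ι LS) := by
  unfold grp
  rw [Subgroup.closure_le]
  rintro g (⟨E, hE, a, ha, rfl⟩ | ⟨w, _, rfl⟩)
  · exact Subgroup.subset_closure (Or.inl ⟨E, hE, a, ha, rfl⟩)
  · exact dP_mem_closure_gens LS w

theorem grp_le_bdd (LS : Set (Set Z2)) : grp ι LS ≤ bdd ι := by
  unfold grp
  rw [Subgroup.closure_le]
  rintro g (⟨E, hE, a, ha, rfl⟩ | ⟨w, _, rfl⟩)
  · exact eP_mem_bdd _ _
  · exact dP_mem_bdd _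

theorem AI.mono {pos : Z2 → ℤ} {A B : Set (Perm (Z2 × ι))} (h : AI pos B) (hAB : A ⊆ B) :
    AI pos A := fun K hK => h K (hK.trans hAB)

/-- **Reduction of amenability.** -/
theorem isAmenable_grp (LS : Set (Set Z2)) (h1 : AI Prod.fst (gens ι LS))
    (h2 : AI Prod.snd (gens ι LS)) : Vale.Agent.P196.IsAmenable (grp ι LS) :=
  isAmenable_of_AI _ (grp_le_bdd LS) (h1.closure.mono (grp_le_closure_gens LS))
    (h2.closure.mono (grp_le_closure_gens LS))

end main

section swap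

variable [Fintype ι] [DecidableEq ι]

/-- exchange of the coordinates -/
def swP (ι : Type*) : Perm (Z2 × ι) where
  toFun p := (p.1.swap, p.2)
  invFun p := (p.1.swap, p.2)
  left_inv p := by simp
  right_inv p := by simp

/-- the swapped system of local sets -/
def swLS (LS : Set (Set Z2)) : Set (Set Z2) := {E | Prod.swap ⁻¹' E ∈ LS}

/-- `AI` in the second coordinate from `AI` in the first coordinate for the swapped system. -/
theorem AI_snd_of_swap (LS : Set (Set Z2)) (h : AI Prod.fst (gens ι (swLS LS))) :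
    AI Prod.snd (gens ι LS) := by
  classical
  intro K hK δ hδ
  set s := swP ι with hs
  have hss : s * s = 1 := by
    ext1 p; rfl
  have hsi : s⁻¹ = s := by
    rw [inv_eq_iff_mul_eq_one]; exact hss
  have hconj : ∀ g ∈ gens ι LS, s * g * s ∈ gens ι (swLS LS) := by
    rintro g (⟨E, hE, a, ha, rfl⟩ | ⟨i, e, he, rfl⟩)
    · refine Or.inl ⟨Prod.swap ⁻¹' E, ?_, a, ha, ?_⟩
      · show Prod.swap ⁻¹' (Prod.swap ⁻¹' E) ∈ LS
        rw [← Set.preimage_comp]
        simpa using hE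
      · ext1 ⟨u, f⟩
        show s (eP E a (u.swap, f)) = _
        by_cases h : u.swap ∈ E
        · rw [eP_apply_mem h, eP_apply_mem (show u ∈ Prod.swap ⁻¹' E from h)]
          simp [hs, swP]
        · rw [eP_apply_notMem h, eP_apply_notMem (show u ∉ Prod.swap ⁻¹' E from h)]
          simp [hs, swP]
    · refine Or.inr ⟨i, e.swap, ?_, ?_⟩
      · rcases he with rfl | rfl
        · right; rfl
        · left; rfl
      · ext1 ⟨u, f⟩
        show s (dP (Pi.single i e) (u.swap, f)) = _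
        rw [dP_apply, dP_apply]
        simp only [hs, swP, Equiv.coe_fn_mk]
        by_cases h : f = i
        · subst h
          simp
        · simp [Pi.single_eq_of_ne h]
  obtain ⟨F, T, h0, hT, hpos, ⟨C, hC⟩, hF⟩ := h (K.image (fun g => s * g * s)) (by
    intro g hg
    simp only [Finset.coe_image, Set.mem_image] at hg
    obtain ⟨k, hk, rfl⟩ := hg
    exact hconj k (hK hk)) δ hδ
  have hinj : Function.Injective (fun y : Tgt ι => y ∘ s) := comp_inj s
  have hsum : ∀ f : Tgt ι → ℝ, ∑ y ∈ T.image (fun y => y ∘ s), f y = ∑ y ∈ T, f (y ∘ s) := by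
    intro f
    rw [Finset.sum_image]
    intro a _ b _ hab
    exact hinj hab
  have hcc : ∀ y : Tgt ι, (y ∘ s) ∘ s = y := by
    intro y; funext p; rfl
  refine ⟨fun y => F (y ∘ s), T.image (fun y => y ∘ s), fun y => h0 _, ?_, ?_, ⟨C, ?_⟩, ?_⟩
  · intro y hy
    rw [Finset.mem_image]
    exact ⟨y ∘ s, hT _ hy, hcc y⟩
  · rw [hsum]
    simpa only [hcc] using hpos
  · intro y hy p
    obtain ⟨z, hz, rfl⟩ := Finset.mem_image.1 hy
    have := hC z hz (s p)
    simpa [hs, swP] using this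
  · intro g hg
    have := hF (s * g * s) (Finset.mem_image_of_mem _ hg)
    unfold defect at this ⊢
    rw [hsum, hsum]
    simp only [hcc]
    have he : ∀ y : Tgt ι, ((y ∘ s) ∘ g) ∘ s = y ∘ (s * g * s : Perm (Z2 × ι)) := by
      intro y; funext p; rfl
    simp only [he]
    exact this

end swap

end Vale.Agent.P196.AM
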