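import Mathlib
import Vale.Agent.P196.R987.Reduce

/-!
# P196, AM7c: push-forward of `Ψ²` from a finite configuration space
-/

namespace Vale.Agent.P196.AM

open Equiv Vale.Agent.P196.S0

variable {P V : Type*} {Ω : Type*} [Fintype Ω]

open Classical in
/-- push-forward of the measure `Ψ²` -/
noncomputable def pushF (R : Ω → (P → V)) (Ψ : Ω → ℝ) (y : P → V) : ℝ :=
  ∑ w, if R w = y then Ψ w ^ 2 else 0

open Classical in
/-- its support -/
noncomputable def pushT (R : Ω → (P → V)) (Ψ : Ω → ℝ) : Finset (P → V) :=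
  (Finset.univ.filter (fun w => Ψ w ≠ 0)).image R

theorem pushF_nonneg (R : Ω → (P → V)) (Ψ : Ω → ℝ) (y : P → V) : 0 ≤ pushF R Ψ y :=
  Finset.sum_nonneg fun w _ => by split_ifs <;> positivity

theorem pushF_supp (R : Ω → (P → V)) (Ψ : Ω → ℝ) (y : P → V) (h : pushF R Ψ y ≠ 0) :
    y ∈ pushT R Ψ := by
  classical
  obtain ⟨w, _, hw⟩ := Finset.exists_ne_zero_of_sum_ne_zero h
  by_cases h1 : R w = y
  · rw [if_pos h1] at hw
    exact Finset.mem_image.2 ⟨w, by simpa using hw, h1⟩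
  · rw [if_neg h1] at hw; exact absurd rfl hw

theorem pushF_sum (R : Ω → (P → V)) (Ψ : Ω → ℝ) :
    ∑ y ∈ pushT R Ψ, pushF R Ψ y = ∑ w, Ψ w ^ 2 := by
  classical
  unfold pushF
  rw [Finset.sum_comm]
  refine Finset.sum_congr rfl fun w _ => ?_
  rw [Finset.sum_ite_eq]
  by_cases h : Ψ w = 0
  · simp [h]
  · rw [if_pos]
    exact Finset.mem_image.2 ⟨w, by simpa using h, rfl⟩

theorem defect_push (R : Ω → (P → V)) (Ψ : Ω → ℝ) (g : Perm P) (hat : Perm Ω)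
    (h : ∀ w, Ψ w ≠ 0 → R (hat w) ∘ g = R w) {ε : ℝ} (hε : 0 ≤ ε)
    (hinv : ∑ w, (Ψ (hat w) - Ψ w) ^ 2 ≤ ε ^ 2 * ∑ w, Ψ w ^ 2) :
    defect (pushF R Ψ) (pushT R Ψ) g ≤ 2 * ε * ∑ w, Ψ w ^ 2 := by
  classical
  set m := ∑ w, Ψ w ^ 2 with hm
  have hm0 : 0 ≤ m := Finset.sum_nonneg fun _ _ => sq_nonneg _
  have hF : ∀ y, pushF R Ψ (y ∘ g) = ∑ w, if R (hat w) = y then Ψ w ^ 2 else 0 := by
    intro y
    unfold pushF
    refine Finset.sum_congr rfl fun w _ => ?_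
    by_cases h0 : Ψ w = 0
    · simp [h0]
    · have : R w = y ∘ g ↔ R (hat w) = y := by
        rw [← h w h0]
        constructor
        · intro h1; exact comp_inj g h1
        · intro h1; rw [h1]
      simp only [this]
  have hF2 : ∀ y, pushF R Ψ (y ∘ g) = ∑ w, if R w = y then Ψ (hat.symm w) ^ 2 else 0 := by
    intro y
    rw [hF, ← Equiv.sum_comp hat (fun w => if R w = y then Ψ (hat.symm w) ^ 2 else 0)]
    simp
  have h1 : defect (pushF R Ψ) (pushT R Ψ) g ≤ ∑ w, |Ψ (hat.symm w) ^ 2 - Ψ w ^ 2| := by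
    unfold defect
    calc ∑ y ∈ pushT R Ψ, |pushF R Ψ (y ∘ g) - pushF R Ψ y|
        ≤ ∑ y ∈ pushT R Ψ, ∑ w, (if R w = y then |Ψ (hat.symm w) ^ 2 - Ψ w ^ 2| else 0) := by
          refine Finset.sum_le_sum fun y _ => ?_
          rw [hF2]
          unfold pushF
          rw [← Finset.sum_sub_distrib]
          refine (Finset.abs_sum_le_sum_abs _ _).trans (Finset.sum_le_sum fun w _ => ?_)
          split_ifs <;> simp
      _ = ∑ w, ∑ y ∈ pushT R Ψ, (if R w = y then |Ψ (hat.symm w) ^ 2 - Ψ w ^ 2| else 0) :=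
          Finset.sum_comm
      _ ≤ _ := by
          refine Finset.sum_le_sum fun w _ => ?_
          rw [Finset.sum_ite_eq]
          split_ifs
          · exact le_refl _
          · exact abs_nonneg _
  have h2 : ∑ w, |Ψ (hat.symm w) ^ 2 - Ψ w ^ 2| = ∑ w, |Ψ (hat w) - Ψ w| * |Ψ (hat w) + Ψ w| := by
    rw [← Equiv.sum_comp hat (fun w => |Ψ (hat.symm w) ^ 2 - Ψ w ^ 2|)]
    refine Finset.sum_congr rfl fun w _ => ?_
    rw [Equiv.symm_apply_apply, ← abs_mul, abs_sub_comm]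
    congr 1
    ring
  have h3 : ∑ w, |Ψ (hat w) + Ψ w| ^ 2 ≤ 4 * m := by
    calc ∑ w, |Ψ (hat w) + Ψ w| ^ 2 ≤ ∑ w, (2 * Ψ (hat w) ^ 2 + 2 * Ψ w ^ 2) := by
          refine Finset.sum_le_sum fun w _ => ?_
          rw [sq_abs]
          nlinarith [sq_nonneg (Ψ (hat w) - Ψ w)]
      _ = 2 * ∑ w, Ψ (hat w) ^ 2 + 2 * m := by
          rw [Finset.sum_add_distrib, ← Finset.mul_sum, ← Finset.mul_sum]
      _ = 4 * m := by
          rw [Equiv.sum_comp hat (fun w => Ψ w ^ 2)]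
          ring
  have hcs := Finset.sum_mul_sq_le_sq_mul_sq Finset.univ (fun w => |Ψ (hat w) - Ψ w|)
    (fun w => |Ψ (hat w) + Ψ w|)
  have h4 : (∑ w, |Ψ (hat w) - Ψ w| * |Ψ (hat w) + Ψ w|) ^ 2 ≤ (2 * ε * m) ^ 2 := by
    refine hcs.trans ?_
    calc (∑ w, |Ψ (hat w) - Ψ w| ^ 2) * ∑ w, |Ψ (hat w) + Ψ w| ^ 2 ≤ (ε ^ 2 * m) * (4 * m) := by
          apply mul_le_mul _ h3 (Finset.sum_nonneg fun _ _ => sq_nonneg _) (by positivity)
          simpa only [sq_abs] using hinv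
      _ = (2 * ε * m) ^ 2 := by ring
  calc defect (pushF R Ψ) (pushT R Ψ) g ≤ ∑ w, |Ψ (hat w) - Ψ w| * |Ψ (hat w) + Ψ w| :=
        h1.trans h2.le
    _ ≤ 2 * ε * m := le_of_sq_le_sq h4 (by positivity)

/-- **Push-forward criterion for `AI`.**  For every finite set `K` of generators and every
`ε > 0` we are given a finite configuration space with a realisation map, a vector `Ψ ≠ 0`, and
lifts of the elements of `K`. -/
theorem AI_of_push {ι : Type*} (pos : Z2 → ℤ) (gens : Set (Perm (Z2 × ι)))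
    (H : ∀ K : Finset (Perm (Z2 × ι)), (K : Set (Perm (Z2 × ι))) ⊆ gens → ∀ ε : ℝ, 0 < ε →
      ∃ (Ω : Type) (_ : Fintype Ω) (R : Ω → Tgt ι) (Ψ : Ω → ℝ), (∃ w, Ψ w ≠ 0) ∧
        (∃ C : ℤ, ∀ w, Ψ w ≠ 0 → ∀ p : Z2 × ι, |(R w p).1 - pos p.1| ≤ C) ∧
        ∀ g ∈ K, ∃ hat : Perm Ω, (∀ w, Ψ w ≠ 0 → R (hat w) ∘ g = R w) ∧
          ∑ w, (Ψ (hat w) - Ψ w) ^ 2 ≤ ε * ∑ w, Ψ w ^ 2) :
    AI pos gens := by
  classical
  intro K hK δ hδ
  obtain ⟨Ω, _, R, Ψ, ⟨w0, hw0⟩, ⟨C, hC⟩, hg⟩ := H K hK ((δ / 2) ^ 2) (by positivity)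
  have hpos : 0 < ∑ w, Ψ w ^ 2 :=
    Finset.sum_pos' (fun _ _ => sq_nonneg _) ⟨w0, Finset.mem_univ _, by positivity⟩
  refine ⟨pushF R Ψ, pushT R Ψ, pushF_nonneg R Ψ, pushF_supp R Ψ, ?_, ⟨C, ?_⟩, ?_⟩
  · rw [pushF_sum]; exact hpos
  · intro y hy p
    obtain ⟨w, hw, rfl⟩ := Finset.mem_image.1 hy
    exact hC w (Finset.mem_filter.1 hw).2 p
  · intro g hgK
    obtain ⟨hat, h1, h2⟩ := hg g hgK
    have := defect_push R Ψ g hat h1 (ε := δ / 2) (by positivity) h2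
    rw [pushF_sum]
    calc _ ≤ 2 * (δ / 2) * ∑ w, Ψ w ^ 2 := this
      _ = δ * ∑ w, Ψ w ^ 2 := by ring

end Vale.Agent.P196.AM
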