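import Mathlib
import Vale.Agent.P196.Tile.AM
import Vale.Agent.P196.Tile.Local
import Vale.Agent.P196.R987.Reduce

/-!
# [T-AM] the tiling input for amenability, in the symmetric form used for both coordinates
-/

namespace Vale.Agent.P196.AM

open Vale.Agent.P196.S0 Vale.Agent.P196.Wang

/-- The tiling input: every `E ∈ LS` has a radius `R` such that membership of `u` in `E` is
determined by the class of `u` mod `2^(j+1)` if `u` is far from all lines of level `≥ j`, and by
the class mod `2^(M+1)` and the context if `u` is far from the vertical lines of level `≥ M`.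
The context depends only on the cell and on the nearest horizontal line of level `≥ M`. -/
structure AMTiling (LS : Set (Set Z2)) (Ctx : Type) (ctx : ℕ → Z2 → Ctx) : Prop where
  loc : ∀ E ∈ LS, ∃ R : ℕ,
    (∀ (j : ℕ) (u v : Z2), (2 : ℤ) ^ (j + 1) ∣ v.1 - u.1 → (2 : ℤ) ^ (j + 1) ∣ v.2 - u.2 →
      Far j R u.1 → Far j R u.2 → (u ∈ E ↔ v ∈ E)) ∧
    (∀ (M : ℕ) (u v : Z2), 2 * (R : ℤ) < 2 ^ M → (2 : ℤ) ^ (M + 1) ∣ v.1 - u.1 →
      (2 : ℤ) ^ (M + 1) ∣ v.2 - u.2 → Far M R u.1 → ctx M u = ctx M v → (u ∈ E ↔ v ∈ E))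
  cell : ∀ (M : ℕ) (u v : Z2), u.1 / 2 ^ M = v.1 / 2 ^ M → nl M u.2 = nl M v.2 →
    ctx M u = ctx M v

theorem isLoc_of_sameWin {R : ℕ} {E : Set Z2} (h : ∀ u v, SameWin R u v → (u ∈ E ↔ v ∈ E)) :
    IsLoc R E := fun u v huv => h u v huv

/-- first coordinate -/
theorem amTiling_fst : AMTiling Wang.LS Col ctxH where
  loc E hE := by
    obtain ⟨R, hR⟩ := hE
    have hl := isLoc_of_sameWin hR
    exact ⟨R, fun j u v hx hy h1 h2 => hl.face j hx hy h1 h2,
      fun M u v h hx hy h1 hc => hl.hline M h hx hy h1 hc⟩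
  cell M u v h1 h2 := by
    unfold ctxH
    rw [h1, h2]

/-- second coordinate -/
theorem amTiling_snd : AMTiling (swLS Wang.LS) Col (fun M u => ctxV M u.swap) where
  loc E hE := by
    obtain ⟨R, hR⟩ := hE
    have hl := isLoc_of_sameWin hR
    refine ⟨R, fun j u v hx hy h1 h2 => ?_, fun M u v h hx hy h1 hc => ?_⟩
    · simpa using hl.face j (u := u.swap) (v := v.swap) hy hx h2 h1
    · simpa using hl.vline M h (u := u.swap) (v := v.swap) hy hx h1 hc
  cell M u v h1 h2 := by
    unfold ctxV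
    simp only [Prod.fst_swap, Prod.snd_swap]
    rw [h1, h2]

end Vale.Agent.P196.AM
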